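import Vale.Agent.P129BL.Dense
import Vale.Agent.P129BQ.Ctb

/-!
# Countable closures and closed star subalgebras inside a model
-/

set_option linter.unusedSectionVars false

namespace Vale.Agent.P070ZT

open Vale.Agent.P129B

universe v

variable {N : Type v} [ZM N]

section Chain

variable {X : Type*} [Coded N X] [Tot N X] {α : Type*} [Coded N α]

@[fun_prop] theorem defF_ctb {S : α → Set X} (hS : DefF N S) : DefF N (fun a => Ctb N (S a)) := by
  unfold Ctb
  fun_prop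

theorem ctb_range (e : NN N → X) [h : Intl N e] : Ctb N (Set.range e) := ⟨e, h, fun _ ha => ha⟩

theorem ctb_biUnion {Y : Type*} [Coded N Y] [Tot N Y] {S : Set Y} (hS : Ctb N S)
    {D : Y → Set X} (hD : DefF N D) (h : ∀ y, Ctb N (D y)) : Ctb N {x | ∃ y ∈ S, x ∈ D y} := by
  obtain ⟨e, he, he'⟩ := hS
  refine (ctb_iUnion (D := fun n => D (e n)) (by fun_prop) fun n => h _).mono ?_
  rintro x ⟨y, hy, hx⟩
  obtain ⟨n, rfl⟩ := he' y hy
  exact Set.mem_iUnion.2 ⟨n, hx⟩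

/-- The chain generated by a definable map with countable values. -/
theorem exists_chain (F : Set X → Set X) (hF : DefF N F)
    (hc : ∀ S, Intl N S → Ctb N S → Ctb N (F S)) (S0 : Set X) [Intl N S0] (h0 : Ctb N S0) :
    ∃ Sn : NN N → Set X, Intl N Sn ∧ Sn 0 = S0 ∧ (∀ n, Sn (n + 1) = Sn n ∪ F (Sn n)) ∧
      (∀ n, Ctb N (Sn n)) ∧ ∀ m n, m ≤ n → Sn m ⊆ Sn n := by
  obtain ⟨Sn, h1, h2, h3⟩ := exists_intl_rec (N := N) S0 (s := fun _ S => S ∪ F S) (by fun_prop)
  refine ⟨Sn, h1, h2, h3, fun n => ?_, fun m n hmn => ?_⟩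
  · refine NN.ind (P := fun n => Ctb N (Sn n)) (by fun_prop) (h2 ▸ h0) (fun n ih => ?_) n
    have := hF.intl (Sn n)
    rw [h3]
    exact ih.union (hc _ inferInstance ih)
  · refine NN.le_ind (P := fun n => Sn m ⊆ Sn n) (by fun_prop) Set.Subset.rfl
      (fun n _ ih => ?_) hmn
    rw [h3]
    exact ih.trans Set.subset_union_left

theorem defF_comp3 {A B C D : Type*} [Coded N A] [Coded N B] [Coded N C] [Coded N D]
    {f : A → B → C → D} (hf : DefF N (fun p : A × B × C => f p.1 p.2.1 p.2.2)) {n : α → A}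
    {a : α → B} {b : α → C} (hn : DefF N n) (ha : DefF N a) (hb : DefF N b) :
    DefF N (fun x => f (n x) (a x) (b x)) :=
  DefF.comp (f := fun p : A × B × C => f p.1 p.2.1 p.2.2) hf (hn.pair (ha.pair hb))

/-- The closure of a countable set under countably many binary operations. -/
theorem exists_ctb_closed (f : NN N → X → X → X)
    (hf : DefF N (fun p : NN N × X × X => f p.1 p.2.1 p.2.2)) (S0 : Set X) [Intl N S0]
    (h0 : Ctb N S0) : ∃ Q : Set X, Intl N Q ∧ Ctb N Q ∧ S0 ⊆ Q ∧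
      (∀ n, ∀ a ∈ Q, ∀ b ∈ Q, f n a b ∈ Q) ∧
      ∀ B : Set X, Intl N B → S0 ⊆ B → (∀ n, ∀ a ∈ B, ∀ b ∈ B, f n a b ∈ B) → Q ⊆ B := by
  obtain ⟨Sn, h1, h2, h3, h4, h5⟩ := exists_chain (N := N)
    (fun S : Set X => {x | ∃ n, ∃ a ∈ S, ∃ b ∈ S, f n a b = x})
    (DefF.setOfT (DefF.exT (DefF.bex (by fun_prop) (DefF.bex (by fun_prop)
      (DefF.eq (defF_comp3 hf DefF.id.fst.fst.snd DefF.id.fst.snd DefF.id.snd) (by fun_prop))))))
    (fun S _ ⟨e, he, he'⟩ => ⟨fun t => f t.p1 (e t.p2.p1) (e t.p2.p2),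
      DefF.toIntl (defF_comp3 hf DefF.id.p1 ((DefF.ofIntl e).comp DefF.id.p2.p1)
        ((DefF.ofIntl e).comp DefF.id.p2.p2)), by
      rintro _ ⟨n, a, ha, b, hb, rfl⟩
      obtain ⟨i, rfl⟩ := he' a ha
      obtain ⟨j, rfl⟩ := he' b hb
      exact ⟨NN.pr n (NN.pr i j), by simp⟩⟩) S0 h0
  refine ⟨⋃ n, Sn n, intl_iUnion (by fun_prop), ctb_iUnion (by fun_prop) h4,
    h2 ▸ Set.subset_iUnion Sn 0, fun n a ha b hb => ?_, fun B hB hB0 hBf => ?_⟩
  · obtain ⟨i, hi⟩ := Set.mem_iUnion.1 ha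
    obtain ⟨j, hj⟩ := Set.mem_iUnion.1 hb
    refine Set.mem_iUnion.2 ⟨max i j + 1, ?_⟩
    rw [h3]
    exact Or.inr ⟨n, a, h5 _ _ (le_max_left _ _) hi, b, h5 _ _ (le_max_right _ _) hj, rfl⟩
  · refine Set.iUnion_subset fun n => ?_
    refine NN.ind (P := fun n => Sn n ⊆ B) (by fun_prop) (h2 ▸ hB0) (fun n ih => ?_) n
    rw [h3]
    rintro x (hx | ⟨m, a, ha, b, hb, rfl⟩)
    exacts [ih hx, hBf m a (ih ha) b (ih hb)]

end Chain

section Cl

variable {R : Type*} [Field R] [LinearOrder R] [IsStrictOrderedRing R] [Coded N R] [RF N R]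
  {W : Type*} [AddCommGroup W] [Nm W R] [NG R W] [Coded N W] [Tot N W] [DefSub N W]
  [DefNm N R W]

/-- the closure of a set -/
def cl (B : Set W) : Set W := {x | ∀ ε : R, 0 < ε → ∃ y ∈ B, nm (x - y) < ε}

theorem sub_cl (B : Set W) : B ⊆ cl B := fun x hx ε hε => ⟨x, hx, by simpa using hε⟩

theorem intl_cl (B : Set W) [Intl N B] : Intl N (cl B) := 
  intl_setOfT (P := fun x => ∀ ε : R, 0 < ε → ∃ y ∈ B, nm (x - y) < ε)
    (DefF.allT (DefF.imp (by fun_prop) (DefF.bex (by fun_prop) (DefF.lt (by fun_prop) (by fun_prop)))))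

theorem cl_mono {A B : Set W} (h : A ⊆ B) : cl A ⊆ cl B := fun _ hx ε hε =>
  (hx ε hε).imp fun _ hy => ⟨h hy.1, hy.2⟩

theorem cl_cl {A B : Set W} (h : A ⊆ cl B) : cl A ⊆ cl B := fun x hx ε hε => by
  obtain ⟨y, hy, h1⟩ := hx _ (half_pos hε)
  obtain ⟨z, hz, h2⟩ := h hy _ (half_pos hε)
  exact ⟨z, hz, by linarith [nm_triangle x y z]⟩

@[fun_prop] theorem defF_cl {α : Type*} [Coded N α] {B : α → Set W} (h : DefF N B) :
    DefF N (fun a => cl (B a)) := by
  unfold cl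
  exact DefF.setOfT (DefF.allT (DefF.imp (by fun_prop) (DefF.bex (by fun_prop)
    (DefF.lt (by fun_prop) (by fun_prop)))))

end Cl

section Alg

variable {R : Type*} [Field R] [LinearOrder R] [IsStrictOrderedRing R] [Coded N R] [RF N R]
  {K : Type*} [Field K] [Algebra R K] [Nm K R] [KA R K] [Coded N K] [KF N R K]
  {W : Type*} [Ring W] [StarRing W] [Module K W] [Nm W R] [NA R K W] [Coded N W] [NS N R K W]
  [DefMul N W]

variable (N K) in
/-- internal closed unital star subalgebras -/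
structure CS (B : Set W) : Prop where
  intl : Intl N B
  one : (1 : W) ∈ B
  add : ∀ x ∈ B, ∀ y ∈ B, x + y ∈ B
  mul : ∀ x ∈ B, ∀ y ∈ B, x * y ∈ B
  smul : ∀ (c : K), ∀ x ∈ B, c • x ∈ B
  star : ∀ x ∈ B, star x ∈ B
  closed : ∀ x, (∀ ε : R, 0 < ε → ∃ y ∈ B, nm (x - y) < ε) → x ∈ B

variable (N K) in
/-- the generated algebra, abstractly -/
structure GK (gn : Set W → Set W) : Prop where
  defStar : DefF N (fun x : W => star x)
  nm_mul : ∀ x y : W, nm (x * y) ≤ nm x * nm y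
  nm_star : ∀ x : W, nm (star x) = nm x
  defF : DefF N gn
  cs : ∀ X, Intl N X → CS N K (gn X)
  sub : ∀ X, Intl N X → X ⊆ gn X
  min : ∀ X B, Intl N X → CS N K B → X ⊆ B → gn X ⊆ B

theorem exists_small (c : R) (hc : 0 ≤ c) {ε : R} (hε : 0 < ε) : ∃ δ : R, 0 < δ ∧ δ ≤ 1 ∧
    c * δ < ε := by
  refine ⟨min 1 (ε / (c + 1)), lt_min one_pos (by positivity), min_le_left _ _, ?_⟩
  have h1 : c * min 1 (ε / (c + 1)) ≤ c * (ε / (c + 1)) :=
    mul_le_mul_of_nonneg_left (min_le_right _ _) hc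
  have h2 : c * (ε / (c + 1)) < ε := by
    rw [← mul_div_assoc, div_lt_iff₀ (by positivity)]
    nlinarith
  linarith

variable {gn : Set W → Set W}

/-- The closure of a star subring which is stable under a dense set of scalars. -/
theorem GK.cs_cl (G : GK N K gn) {B : Set W} [Intl N B] (one : (1 : W) ∈ B)
    (add : ∀ x ∈ B, ∀ y ∈ B, x + y ∈ B) (mul : ∀ x ∈ B, ∀ y ∈ B, x * y ∈ B)
    (smul : ∀ t : NN N, ∀ x ∈ B, dk K t • x ∈ B) (st : ∀ x ∈ B, star x ∈ B) :
    CS N K (cl B) where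
  intl := intl_cl B
  one := sub_cl B one
  add x hx y hy ε hε := by
    obtain ⟨a, ha, h1⟩ := hx _ (half_pos hε)
    obtain ⟨b, hb, h2⟩ := hy _ (half_pos hε)
    refine ⟨a + b, add a ha b hb, ?_⟩
    rw [add_sub_add_comm]
    linarith [nm_add_le (x - a) (y - b)]
  mul x hx y hy ε hε := by
    obtain ⟨δ, h0, h1, h2⟩ := exists_small (nm x + nm y + 1)
      (by linarith [nm_nonneg x, nm_nonneg y]) hε
    obtain ⟨a, ha, h3⟩ := hx _ h0
    obtain ⟨b, hb, h4⟩ := hy _ h0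
    refine ⟨a * b, mul a ha b hb, ?_⟩
    have e : x * y - a * b = x * (y - b) + (x - a) * b := by noncomm_ring
    have h5 : nm b ≤ nm y + 1 := by
      have := nm_le_add_sub b y
      rw [nm_sub_rev] at this
      linarith
    have h6 := G.nm_mul x (y - b)
    have h7 := G.nm_mul (x - a) b
    have h8 : nm x * nm (y - b) ≤ nm x * δ := mul_le_mul_of_nonneg_left h4.le (nm_nonneg x)
    have h9 : nm (x - a) * nm b ≤ δ * (nm y + 1) :=
      mul_le_mul h3.le h5 (nm_nonneg _) h0.le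
    rw [e]
    nlinarith [nm_add_le (x * (y - b)) ((x - a) * b)]
  smul c x hx ε hε := by
    obtain ⟨δ, h0, h1, h2⟩ := exists_small (nm c + nm x + 1)
      (by linarith [nm_nonneg x, nm_nonneg c]) hε
    obtain ⟨a, ha, h3⟩ := hx _ h0
    obtain ⟨t, h4, -⟩ := exists_dk N c h0
    refine ⟨dk K t • a, smul t a ha, ?_⟩
    have e : c • x - dk K t • a = c • (x - a) + (c - dk K t) • a := by
      rw [smul_sub, sub_smul]; abel
    have h5 : nm a ≤ nm x + 1 := by
      have := nm_le_add_sub a x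
      rw [nm_sub_rev] at this
      linarith
    have h8 : nm c * nm (x - a) ≤ nm c * δ := mul_le_mul_of_nonneg_left h3.le (nm_nonneg c)
    have h9 : nm (c - dk K t) * nm a ≤ δ * (nm x + 1) := mul_le_mul h4 h5 (nm_nonneg _) h0.le
    have h10 := nm_add_le (c • (x - a)) ((c - dk K t) • a)
    rw [nm_smul, nm_smul] at h10
    rw [e]
    nlinarith
  star x hx ε hε := by
    obtain ⟨a, ha, h1⟩ := hx _ hε
    exact ⟨star a, st a ha, by rwa [← star_sub, G.nm_star]⟩
  closed x hx := cl_cl Set.Subset.rfl hx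

theorem GK.intl (G : GK N K gn) (X : Set W) [h : Intl N X] : Intl N (gn X) := (G.cs X h).intl

theorem GK.mono (G : GK N K gn) {X Y : Set W} [hX : Intl N X] [hY : Intl N Y] (h : X ⊆ Y) :
    gn X ⊆ gn Y := G.min X _ hX (G.cs Y hY) (h.trans (G.sub Y hY))

/-- Countably generated algebras are separable. -/
theorem GK.sep (G : GK N K gn) {X : Set W} [hX : Intl N X] (h : Ctb N X) :
    ∃ d : NN N → W, Intl N d ∧ (∀ n, d n ∈ gn X) ∧ gn X ⊆ cl (Set.range d) := by
  classical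
  have hs := G.defStar
  have C := G.cs X hX
  obtain ⟨Q, q1, ⟨e, he, he'⟩, q3, q4, q5⟩ := exists_ctb_closed (N := N)
    (fun (n : NN N) (a b : W) => if n.p1 = 0 then a + b else if n.p1 = 1 then a * b
      else if n.p1 = 2 then star a else dk K n.p2 • a)
    (DefF.ite (by fun_prop) (by fun_prop) (DefF.ite (by fun_prop) (by fun_prop)
      (DefF.ite (by fun_prop) (hs.comp DefF.id.snd.fst) (by fun_prop)))) (X ∪ {1})
    (h.union (ctb_single 1))
  have hQ : Q ⊆ gn X := by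
    refine q5 _ C.intl (Set.union_subset (G.sub X hX) (Set.singleton_subset_iff.2 C.one))
      fun n a ha b hb => ?_
    split_ifs
    exacts [C.add a ha b hb, C.mul a ha b hb, C.star a ha, C.smul _ a ha]
  have h10 : (1 : NN N) ≠ 0 := one_ne_zero
  have h20 : (2 : NN N) ≠ 0 := two_ne_zero
  have h21 : (2 : NN N) ≠ 1 := by norm_num
  have h30 : (3 : NN N) ≠ 0 := by norm_num
  have h31 : (3 : NN N) ≠ 1 := by norm_num
  have h32 : (3 : NN N) ≠ 2 := by norm_num
  have hc : gn X ⊆ cl Q := by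
    refine G.min X _ hX (G.cs_cl (q3 (Or.inr rfl)) (fun x hx y hy => ?_) (fun x hx y hy => ?_)
      (fun t x hx => ?_) fun x hx => ?_) ((Set.subset_union_left.trans q3).trans (sub_cl Q))
    · simpa using q4 (NN.pr 0 0) x hx y hy
    · simpa [h10] using q4 (NN.pr 1 0) x hx y hy
    · simpa [h30, h31, h32] using q4 (NN.pr 3 t) x hx x hx
    · simpa [h20, h21] using q4 (NN.pr 2 0) x hx x hx
  refine ⟨fun n => if e n ∈ Q then e n else 1, DefF.toIntl (by fun_prop), fun n => ?_,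
    hc.trans (cl_mono fun x hx => ?_)⟩
  · dsimp only
    split_ifs with h1
    exacts [hQ h1, C.one]
  · obtain ⟨n, rfl⟩ := he' x hx
    exact ⟨n, if_pos hx⟩

end Alg

end Vale.Agent.P070ZT
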