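import Vale.Agent.P070ZA.Op

/-!
# Forcing an element to be a scalar on a kernel
-/

set_option linter.unusedSectionVars false

namespace Vale.Agent.P070ZT

open Vale.Agent.P129B Vale.Agent.P070Z

universe v

variable {N : Type v} [ZM N] {R K : Type*} [Nm K R] [Field R] [LinearOrder R]
  [IsStrictOrderedRing R] [Field K] [Algebra R K] [KA R K] [StarRing K] [CX R K] [Coded N R]
  [RF N R] [Coded N K] [KF N R K]
  {H : Type*} [AddCommGroup H] [Module K H] [Nm H R] [Ip H K] [IA R K H] [Coded N H] [HS N R K H]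
  {L : Type*} [AddCommGroup L] [Module K L] [Nm L R] [Ip L K] [IA R K L] [Coded N L] [HS N R K L]
  {M : Type*} [AddCommGroup M] [Module K M] [Nm M R] [Ip M K] [IA R K M] [Coded N M] [HS N R K M]

include R K

/-- unital star homomorphisms on a set of operators -/
structure Hm (A : Set (Op N K H)) (π : Op N K H → Op N K L) : Prop where
  one : π 1 = 1
  add : ∀ a ∈ A, ∀ b ∈ A, π (a + b) = π a + π b
  mul : ∀ a ∈ A, ∀ b ∈ A, π (a * b) = π a * π b
  smul : ∀ (c : K), ∀ a ∈ A, π (c • a) = c • π a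
  star : ∀ a ∈ A, π (star a) = star (π a)

theorem ker_two {a b : Op N K M} {z : M} (h : (star a * a + star b * b) z = 0) :
    a z = 0 ∧ b z = 0 := by
  have h1 : KA.re (ip z ((star a * a + star b * b) z)) = nm (a z) ^ 2 + nm (b z) ^ 2 := by
    rw [Op.add_apply, Op.mul_apply, Op.mul_apply, ip_add_right, ip_star_right,
      ip_star_right, map_add, re_ip_self, re_ip_self]
  rw [h, ip_zero_right, map_zero] at h1
  have ha := sq_nonneg (nm (a z))
  have hb := sq_nonneg (nm (b z))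
  exact ⟨nm_eq_zero.1 (pow_eq_zero_iff two_ne_zero |>.1 (by linarith)),
    nm_eq_zero.1 (pow_eq_zero_iff two_ne_zero |>.1 (by linarith))⟩

/-- From transitivity: a positive contraction of `A` which kills `η` and on whose kernel `a` is
a scalar. -/
theorem forcing {A : Set (Op N K H)} (one : (1 : Op N K H) ∈ A)
    (add : ∀ x ∈ A, ∀ y ∈ A, x + y ∈ A) (mul : ∀ x ∈ A, ∀ y ∈ A, x * y ∈ A)
    (smul : ∀ (c : K), ∀ x ∈ A, c • x ∈ A) (st : ∀ x ∈ A, star x ∈ A)
    {π : Op N K H → Op N K L} (hπ : Hm A π) {P : Op N K H → Op N K M} (hP : Hm A P) {η : L}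
    (hη : nm η = 1) (kad : ∀ y, ip η y = 0 → ∃ b ∈ A, π b η = y ∧ π (star b) η = 0)
    {a : Op N K H} (ha : a ∈ A) :
    ∃ κ ∈ A, star κ = κ ∧ (∀ x, 0 ≤ KA.re (ip x (κ x))) ∧ nm κ ≤ 1 ∧ π κ η = 0 ∧
      ∃ c : K, ∀ z w, P κ z = 0 → P κ w = 0 → ip w (P a z) = c * ip w z := by
  obtain ⟨c, hc⟩ : ∃ c, c = ip η (π a η) := ⟨_, rfl⟩
  obtain ⟨b, hb, hb1, hb2⟩ := kad (π a η - c • η) (by
    rw [ip_sub_right, ip_smul_right, ip_self_one hη, mul_one, ← hc, sub_self])
  have m1 := smul (-c) 1 one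
  have m2 := smul (-1) b hb
  have m3 := add _ m1 _ m2
  obtain ⟨d, hd⟩ : ∃ d, d = a + ((-c) • (1 : Op N K H) + (-1 : K) • b) := ⟨_, rfl⟩
  have m4 : d ∈ A := hd ▸ add a ha _ m3
  have m5 := st b hb
  have m6 := mul _ (st d m4) d m4
  have m7 := mul _ (st _ m5) _ m5
  have m8 := add _ m6 _ m7
  have hdη : π d η = 0 := by
    rw [hd, hπ.add a ha _ m3, hπ.add _ m1 _ m2, hπ.smul _ _ one, hπ.smul _ _ hb, hπ.one]
    simp only [Op.add_apply, Op.smul_apply, Op.one_apply, Op.neg_apply, hb1, neg_smul, one_smul]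
    abel
  obtain ⟨k, hk⟩ : ∃ k, k = star d * d + star (star b) * star b := ⟨_, rfl⟩
  rw [← hk] at m8
  have h0 : 0 < 1 + nm k := by linarith [nm_nonneg k]
  have h1 : 0 < (1 + nm k)⁻¹ := inv_pos.2 h0
  refine ⟨algebraMap R K (1 + nm k)⁻¹ • k, smul _ _ m8, ?_, fun x => ?_, ?_, ?_, c, ?_⟩
  · rw [star_smul, star_ofR, hk]
    simp only [star_add, star_mul, star_star]
  · rw [Op.smul_apply, ip_smul_right, KA.re_ofR_mul, hk, Op.add_apply, Op.mul_apply, Op.mul_apply,
      ip_add_right, ip_star_right, ip_star_right, map_add, re_ip_self, re_ip_self]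
    rw [hk] at h1
    positivity
  · rw [nm_ofR_smul_of_nonneg h1.le, inv_mul_le_iff₀ h0]
    linarith
  · rw [hπ.smul _ _ m8, hk, hπ.add _ m6 _ m7, hπ.mul _ (st d m4) d m4, hπ.mul _ (st _ m5) _ m5]
    simp only [Op.add_apply, Op.smul_apply, Op.mul_apply, hdη, hb2, map_zero, add_zero, smul_zero]
  · have ker : ∀ z, P (algebraMap R K (1 + nm k)⁻¹ • k) z = 0 →
        P d z = 0 ∧ P (star b) z = 0 := by
      intro z hz
      rw [hP.smul _ _ m8, Op.smul_apply] at hz
      have h2 : P k z = 0 := by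
        refine (smul_eq_zero.1 hz).resolve_left fun h => h1.ne' ?_
        exact KA.ofR_inj (K := K) (h.trans (map_zero _).symm)
      rw [hk, hP.add _ m6 _ m7, hP.mul _ (st d m4) d m4, hP.mul _ (st _ m5) _ m5, hP.star d m4,
        hP.star _ m5] at h2
      exact ker_two h2
    intro z w hz hw
    have h3 := (ker z hz).1
    have h4 := (ker w hw).2
    rw [hd, hP.add a ha _ m3, hP.add _ m1 _ m2, hP.smul _ _ one, hP.smul _ _ hb, hP.one] at h3
    simp only [Op.add_apply, Op.smul_apply, Op.one_apply, Op.neg_apply, neg_smul, one_smul] at h3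
    have h5 : P a z = c • z + P b z := by
      rw [← sub_eq_zero, ← h3]; abel
    rw [h5, ip_add_right, ip_smul_right, ← ip_star_left, ← hP.star b hb, h4, ip_zero_left,
      add_zero]

end Vale.Agent.P070ZT
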