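import Vale.Agent.P070ZT.Cnt
import Vale.Agent.P070ZW.Wo

/-!
# Countable supports and separable stages of a tower
-/

set_option linter.unusedSectionVars false

namespace Vale.Agent.P070ZT

open Vale.Agent.P129B

universe v

variable {N : Type v} [ZM N]
  {R : Type*} [Field R] [LinearOrder R] [IsStrictOrderedRing R] [Coded N R] [RF N R]
  {K : Type*} [Field K] [Algebra R K] [Nm K R] [KA R K] [Coded N K] [KF N R K]
  {W : Type*} [Ring W] [StarRing W] [Module K W] [Nm W R] [NA R K W] [Coded N W] [NS N R K W]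
  [DefMul N W] {gn : Set W → Set W}

theorem CS.cl_sub {B : Set W} (h : CS N K B) : cl B ⊆ B := fun x hx => h.closed x hx

/-- Directed unions. -/
theorem GK.dir (G : GK N K gn) {F : Set (Set W)} [Intl N F] (hne : F.Nonempty)
    (hdir : ∀ A ∈ F, ∀ B ∈ F, ∃ C ∈ F, A ⊆ C ∧ B ⊆ C) (h : ∀ A ∈ F, CS N K A) :
    CS N K (cl (⋃₀ F)) := by
  have := intl_sUnion (N := N) F
  obtain ⟨A0, h0⟩ := hne
  refine G.cs_cl ⟨A0, h0, (h A0 h0).one⟩ ?_ ?_ ?_ ?_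
  · rintro x ⟨A, hA, hx⟩ y ⟨B, hB, hy⟩
    obtain ⟨C, hC, h1, h2⟩ := hdir A hA B hB
    exact ⟨C, hC, (h C hC).add x (h1 hx) y (h2 hy)⟩
  · rintro x ⟨A, hA, hx⟩ y ⟨B, hB, hy⟩
    obtain ⟨C, hC, h1, h2⟩ := hdir A hA B hB
    exact ⟨C, hC, (h C hC).mul x (h1 hx) y (h2 hy)⟩
  · rintro t x ⟨A, hA, hx⟩
    exact ⟨A, hA, (h A hA).smul _ x hx⟩
  · rintro x ⟨A, hA, hx⟩
    exact ⟨A, hA, (h A hA).star x hx⟩

variable {ι : Type*} [Coded N ι] [Tot N ι] {A0 : Set W} [Intl N A0] {u : ι → W} [Intl N u]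

instance intl_letters (S : Set ι) [Intl N S] : Intl N (u '' S) := intl_image (by fun_prop) S

theorem GK.defL (G : GK N K gn) {α : Type*} [Coded N α] {S : α → Set ι} (hS : DefF N S) :
    DefF N (fun a => gn (A0 ∪ u '' S a)) := G.defF.comp (by fun_prop)

theorem GK.monoL (G : GK N K gn) {S T : Set ι} [Intl N S] [Intl N T] (h : S ⊆ T) :
    gn (A0 ∪ u '' S) ⊆ gn (A0 ∪ u '' T) :=
  G.mono (Set.union_subset_union_right _ (Set.image_mono h))

/-- Countable supports. -/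
theorem GK.supp [Nonempty ι] (G : GK N K gn) {S : Set ι} [Intl N S] {x : W}
    (hx : x ∈ gn (A0 ∪ u '' S)) :
    ∃ T : Set ι, Intl N T ∧ T ⊆ S ∧ Ctb N T ∧ x ∈ gn (A0 ∪ u '' T) := by
  have hD : DefF N (fun p : W × Set ι => p.2 ⊆ S ∧ Ctb N p.2 ∧ p.1 ∈ gn (A0 ∪ u '' p.2)) :=
    DefF.and (by fun_prop) (DefF.and (by fun_prop) (DefF.mem (by fun_prop) (G.defL DefF.id.snd)))
  have two : ∀ {x y : W}, (∃ T : Set ι, Intl N T ∧ T ⊆ S ∧ Ctb N T ∧ x ∈ gn (A0 ∪ u '' T)) →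
      (∃ T : Set ι, Intl N T ∧ T ⊆ S ∧ Ctb N T ∧ y ∈ gn (A0 ∪ u '' T)) →
      ∃ T : Set ι, Intl N T ∧ T ⊆ S ∧ Ctb N T ∧ x ∈ gn (A0 ∪ u '' T) ∧ y ∈ gn (A0 ∪ u '' T) := by
    rintro x y ⟨T, h1, h2, h3, h4⟩ ⟨T', h5, h6, h7, h8⟩
    exact ⟨T ∪ T', inferInstance, Set.union_subset h2 h6, h3.union h7,
      G.monoL Set.subset_union_left h4, G.monoL Set.subset_union_right h8⟩
  refine G.min (A0 ∪ u '' S)
    {x | ∃ T : Set ι, Intl N T ∧ T ⊆ S ∧ Ctb N T ∧ x ∈ gn (A0 ∪ u '' T)} inferInstance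
    ⟨intl_setOfT (DefF.ex hD), ⟨∅, inferInstance, Set.empty_subset _, ctb_empty,
      (G.cs _ inferInstance).one⟩, fun x hx y hy => ?_, fun x hx y hy => ?_, ?_, ?_,
      fun x hx => ?_⟩ ?_ hx
  · obtain ⟨T, h1, h2, h3, h4, h5⟩ := two hx hy
    exact ⟨T, h1, h2, h3, (G.cs _ inferInstance).add x h4 y h5⟩
  · obtain ⟨T, h1, h2, h3, h4, h5⟩ := two hx hy
    exact ⟨T, h1, h2, h3, (G.cs _ inferInstance).mul x h4 y h5⟩
  · rintro c x ⟨T, h1, h2, h3, h4⟩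
    exact ⟨T, h1, h2, h3, (G.cs _ inferInstance).smul c x h4⟩
  · rintro x ⟨T, h1, h2, h3, h4⟩
    exact ⟨T, h1, h2, h3, (G.cs _ inferInstance).star x h4⟩
  · obtain ⟨T, hT, H⟩ := exists_intl_choice (N := N) (α := NN N) (β := Set ι)
      (R := fun n T => T ⊆ S ∧ Ctb N T ∧ ∃ y ∈ gn (A0 ∪ u '' T), nm (x - y) < hp R n)
      (DefF.and (by fun_prop) (DefF.and (by fun_prop)
        (DefF.bex (G.defL DefF.id.snd) (by fun_prop)))) fun n => by
        obtain ⟨y, ⟨T, h1, h2, h3, h4⟩, h5⟩ := hx _ (hp_pos n)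
        exact ⟨T, h1, h2, h3, y, h4, h5⟩
    have hU : Intl N (⋃ n, T n) := intl_iUnion (by fun_prop)
    refine ⟨⋃ n, T n, hU, Set.iUnion_subset fun n => (H n).1,
      ctb_iUnion (by fun_prop) fun n => (H n).2.1, (G.cs _ inferInstance).closed x fun ε hε => ?_⟩
    obtain ⟨n, hn⟩ := exists_hp_lt N hε
    obtain ⟨y, h1, h2⟩ := (H n).2.2
    exact ⟨y, G.monoL (Set.subset_iUnion T n) h1, h2.trans (hn n le_rfl)⟩
  · rintro x (hx | ⟨i, hi, rfl⟩)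
    · exact ⟨∅, inferInstance, Set.empty_subset _, ctb_empty, G.sub _ inferInstance (Or.inl hx)⟩
    · exact ⟨{i}, inferInstance, Set.singleton_subset_iff.2 hi, ctb_single i,
        G.sub _ inferInstance (Or.inr ⟨i, rfl, rfl⟩)⟩

/-- Countably many letters over a separable base generate a separable algebra. -/
theorem GK.sepL (G : GK N K gn) (s : NN N → W) [Intl N s] (h1 : ∀ n, s n ∈ A0)
    (h2 : A0 ⊆ gn (Set.range s)) {S : Set ι} [Intl N S] (hS : S = ∅ ∨ Ctb N S) :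
    ∃ d : NN N → W, Intl N d ∧ (∀ n, d n ∈ gn (A0 ∪ u '' S)) ∧
      gn (A0 ∪ u '' S) ⊆ cl (Set.range d) := by
  have := intl_range (N := N) s
  have hc : Ctb N (u '' S) := by
    rcases hS with rfl | ⟨e, he, he'⟩
    · rw [Set.image_empty]; exact ctb_empty (h := ⟨1⟩)
    · refine ⟨fun n => u (e n), DefF.toIntl (by fun_prop), ?_⟩
      rintro _ ⟨i, hi, rfl⟩
      obtain ⟨n, rfl⟩ := he' i hi
      exact ⟨n, rfl⟩
  obtain ⟨d, d1, d2, d3⟩ := G.sep (X := Set.range s ∪ u '' S) ((ctb_range s).union hc)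
  refine ⟨d, d1, fun n => G.mono (Set.union_subset_union_left _ ?_) (d2 n),
    (G.min _ _ inferInstance (G.cs _ inferInstance) (Set.union_subset ?_ ?_)).trans d3⟩
  · rintro _ ⟨n, rfl⟩; exact h1 n
  · exact h2.trans (G.mono Set.subset_union_left)
  · exact Set.subset_union_right.trans (G.sub _ inferInstance)

/-- **Separable stages.** -/
theorem GK.stage (G : GK N K gn) (s : NN N → W) [Intl N s] (h1 : ∀ n, s n ∈ A0)
    (h2 : A0 ⊆ gn (Set.range s)) {lo : ι → Set ι} (hlo : DefF N lo) {a b : ι → W} (ha : DefF N a)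
    (hb : DefF N b) (ha' : ∀ i, a i ∈ gn (A0 ∪ u '' lo i)) (hb' : ∀ i, b i ∈ gn (A0 ∪ u '' lo i))
    {κ : W → W} (hκ : DefF N κ)
    (hκ' : ∀ x ∈ gn (A0 ∪ u '' Set.univ), κ x ∈ gn (A0 ∪ u '' Set.univ)) :
    ∃ (Tc : ι → Set ι) (S : Set ι) (f : NN N → W), Intl N Tc ∧ Intl N S ∧ Intl N f ∧
      (∀ i, Tc i ⊆ lo i ∧ a i ∈ gn (A0 ∪ u '' Tc i) ∧ b i ∈ gn (A0 ∪ u '' Tc i)) ∧ IsCl Tc S ∧
      (∀ n, f n ∈ gn (A0 ∪ u '' S) ∧ κ (f n) ∈ gn (A0 ∪ u '' S)) ∧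
      gn (A0 ∪ u '' S) ⊆ cl (Set.range f) := by
  rcases isEmpty_or_nonempty ι with hι | hι
  · obtain ⟨d, d1, d2, d3⟩ := G.sepL (u := u) s h1 h2 (S := Set.univ)
      (Or.inl (Set.eq_empty_of_isEmpty _))
    exact ⟨fun _ => ∅, Set.univ, d, inferInstance, inferInstance, d1, fun i => isEmptyElim i,
      fun i => isEmptyElim i, fun n => ⟨d2 n, hκ' _ (d2 n)⟩, d3⟩
  obtain ⟨Tc, t0, t1⟩ := exists_intl_choice (N := N) (α := ι) (β := Set ι)
    (R := fun i T => Ctb N T ∧ T ⊆ lo i ∧ a i ∈ gn (A0 ∪ u '' T) ∧ b i ∈ gn (A0 ∪ u '' T))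
    (DefF.and (by fun_prop) (DefF.and (by fun_prop)
      (DefF.and (DefF.mem (by fun_prop) (G.defL DefF.id.snd))
        (DefF.mem (by fun_prop) (G.defL DefF.id.snd))))) fun i => by
      have := hlo.intl i
      obtain ⟨T, p1, p2, p3, p4⟩ := G.supp (ha' i)
      obtain ⟨T', q1, q2, q3, q4⟩ := G.supp (hb' i)
      exact ⟨T ∪ T', inferInstance, p3.union q3, Set.union_subset p2 q2,
        G.monoL Set.subset_union_left p4, G.monoL Set.subset_union_right q4⟩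
  obtain ⟨sp, s0, s1⟩ := exists_intl_choice (N := N) (α := W) (β := Set ι)
    (R := fun x T => Ctb N T ∧ (x ∈ gn (A0 ∪ u '' Set.univ) → κ x ∈ gn (A0 ∪ u '' T)))
    (DefF.and (by fun_prop) (DefF.imp
      (DefF.mem (by fun_prop) (G.defL (DefF.const Set.univ)))
      (DefF.mem (by fun_prop) (G.defL DefF.id.snd)))) fun x => by
      by_cases hx : x ∈ gn (A0 ∪ u '' Set.univ)
      · obtain ⟨T, p1, -, p3, p4⟩ := G.supp (hκ' x hx)
        exact ⟨T, p1, p3, fun _ => p4⟩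
      · exact ⟨∅, inferInstance, ctb_empty, fun h => absurd h hx⟩
  obtain ⟨Q, q0, q1⟩ := exists_defF_choice (N := N) (α := Set ι) (β := NN N → W)
    (R := fun S d => Ctb N S → (∀ n, d n ∈ gn (A0 ∪ u '' S)) ∧
      gn (A0 ∪ u '' S) ⊆ cl (Set.range d))
    (DefF.imp (by fun_prop) (DefF.and
      (DefF.allT (DefF.mem (by fun_prop) (G.defL DefF.id.fst.fst)))
      (DefF.subset (G.defL DefF.id.fst) (by fun_prop)))) fun S hS => by
      by_cases hc : Ctb N S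
      · obtain ⟨d, d1, d2⟩ := G.sepL (u := u) s h1 h2 (S := S) (Or.inr hc)
        exact ⟨d, d1, fun _ => d2⟩
      · exact ⟨fun _ => 1, inferInstance, fun h => absurd h hc⟩
  have q0' := q0.uncurry
  obtain ⟨Sn, n0, n1, n2, n3, n4⟩ := exists_chain (N := N)
    (fun S : Set ι => {j | ∃ i ∈ S, j ∈ Tc i} ∪ ⋃ n, sp (Q S n))
    (DefF.union (by fun_prop) (by
      have : DefF N (fun S : Set ι => {j | ∃ n, j ∈ sp (Q S n)}) :=
        DefF.setOfT (DefF.exT (DefF.mem (by fun_prop)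
          ((DefF.ofIntl sp).comp (q0'.comp2 DefF.id.fst.fst DefF.id.snd))))
      exact this.congr fun S _ => by ext j; simp))
    (fun S _ hS => by
      have e1 : Intl N {j | ∃ i ∈ S, j ∈ Tc i} := intl_setOfT (by fun_prop)
      have e2 : DefF N (fun n => sp (Q S n)) :=
        (DefF.ofIntl sp).comp (q0'.comp2 (DefF.const S) DefF.id)
      have e3 := intl_iUnion e2
      exact (ctb_biUnion hS (by fun_prop) fun i => (t1 i).1).union
        (ctb_iUnion e2 fun n => (s1 _).1)) ∅ ctb_empty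
  have hU : Intl N (⋃ n, Sn n) := intl_iUnion (by fun_prop)
  have hf : DefF N (fun t : NN N => Q (Sn t.p1) t.p2) :=
    q0'.comp2 ((DefF.ofIntl Sn).comp DefF.id.p1) DefF.id.p2
  have hq : ∀ m n, Q (Sn m) n ∈ gn (A0 ∪ u '' Sn m) := fun m n =>
    (q1 _ inferInstance (n3 m)).1 n
  refine ⟨Tc, ⋃ n, Sn n, fun t => Q (Sn t.p1) t.p2, t0, hU, hf.toIntl, fun i => (t1 i).2,
    fun i hi j hj => ?_, fun t => ⟨G.monoL (Set.subset_iUnion Sn _) (hq _ _), ?_⟩, ?_⟩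
  · obtain ⟨n, hn⟩ := Set.mem_iUnion.1 hi
    refine Set.mem_iUnion.2 ⟨n + 1, ?_⟩
    rw [n2]
    exact Or.inr (Or.inl ⟨i, hn, hj⟩)
  · refine G.monoL (S := sp (Q (Sn t.p1) t.p2)) (fun j hj => ?_)
      ((s1 _).2 (G.monoL (Set.subset_univ _) (hq _ _)))
    refine Set.mem_iUnion.2 ⟨t.p1 + 1, ?_⟩
    rw [n2]
    exact Or.inr (Or.inr (Set.mem_iUnion.2 ⟨t.p2, hj⟩))
  · have hg : DefF N (fun n => gn (A0 ∪ u '' Sn n)) := G.defL (by fun_prop)
    have hg1 := hg.toIntl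
    have hg2 := intl_range (N := N) (fun n => gn (A0 ∪ u '' Sn n))
    have C := G.dir (F := Set.range fun n => gn (A0 ∪ u '' Sn n)) (Set.range_nonempty _) (by
      rintro _ ⟨m, rfl⟩ _ ⟨n, rfl⟩
      exact ⟨_, ⟨max m n, rfl⟩, G.monoL (n4 _ _ (le_max_left _ _)),
        G.monoL (n4 _ _ (le_max_right _ _))⟩) (by
      rintro _ ⟨m, rfl⟩
      exact G.cs _ inferInstance)
    refine (G.min _ _ inferInstance C ?_).trans (cl_cl ?_)
    · rintro x (hx | ⟨i, hi, rfl⟩)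
      · exact sub_cl _ ⟨_, ⟨0, rfl⟩, G.sub _ inferInstance (Or.inl hx)⟩
      · obtain ⟨n, hn⟩ := Set.mem_iUnion.1 hi
        exact sub_cl _ ⟨_, ⟨n, rfl⟩, G.sub _ inferInstance (Or.inr ⟨i, hn, rfl⟩)⟩
    · rintro x ⟨_, ⟨m, rfl⟩, hx⟩
      refine cl_mono ?_ ((q1 _ inferInstance (n3 m)).2 hx)
      rintro _ ⟨n, rfl⟩
      exact ⟨NN.pr m n, by simp⟩

end Vale.Agent.P070ZT
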