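import Vale.Agent.P070ZA.Defs
import Vale.Agent.P070ZT.Stage
import Vale.Agent.P070ZT.Force

/-!
# Forcing elements and separable stages for towers
-/

set_option linter.unusedSectionVars false

namespace Vale.Agent.P070ZT

open Vale.Agent.P129B Vale.Agent.P070Z

universe v

variable {N : Type v} [ZM N] {R K : Type*} [Nm K R] [Field R] [LinearOrder R]
  [IsStrictOrderedRing R] [Field K] [Algebra R K] [KA R K] [StarRing K] [CX R K] [Coded N R]
  [RF N R] [Coded N K] [KF N R K]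
  {H : Type*} [AddCommGroup H] [Module K H] [Nm H R] [Ip H K] [IA R K H] [Coded N H] [HS N R K H]
  {L : Type*} [AddCommGroup L] [Module K L] [Nm L R] [Ip L K] [IA R K L] [Coded N L] [HS N R K L]
  {M : Type*} [AddCommGroup M] [Module K M] [Nm M R] [Ip M K] [IA R K M] [Coded N M] [HS N R K M]

include R K

theorem hm_of {A : Set (Op N K H)} {π : Op N K H → Op N K L} (h : URp A π) : Hm A π :=
  ⟨h.one, h.add, h.mul, h.smul, h.star⟩

theorem exists_forcing {A : Set (Op N K H)} (hA : CS N K A) {π : Op N K H → Op N K L}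
    (hπ : URp A π) {P : Op N K H → Op N K M} (hP : URp A P) {η : L} (hη : nm η = 1)
    (kad : ∀ y, ip η y = 0 → ∃ b ∈ A, π b η = y ∧ π (star b) η = 0) {a : Op N K H} (ha : a ∈ A) :
    ∃ κ ∈ A, Pos κ ∧ nm κ ≤ 1 ∧ π κ η = 0 ∧ ∃ c, DetAt P κ a c := by
  obtain ⟨κ, h1, h2, h3, h4⟩ := forcing hA.one hA.add hA.mul hA.smul hA.star (hm_of hπ) (hm_of hP)
    hη kad ha
  exact ⟨κ, h1, ⟨h2, h3⟩, h4⟩

variable {ι : Type*} [Coded N ι] [Tot N ι] [LinearOrder ι] [DefLT N ι]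
  {P : Op N K H → Op N K M} {A0 : Set (Op N K H)} {k0 U : Op N K H} {k u : ι → Op N K H}

/-- Supports, a closed set of letters `S`, a dense sequence `f` of the algebra of `S` and forcing
elements `g n` for the `f n` in this algebra. -/
theorem exists_stage (hP : URp Set.univ P)
    (sep : ∃ s : NN N → Op N K H, Intl N s ∧ (∀ n, s n ∈ A0) ∧ A0 ⊆ gen (Set.range s))
    (T : IsTower P A0 k0 U k u) {π : Op N K H → Op N K L}
    (hπ : URp (gen (A0 ∪ u '' Set.univ)) π) {η : L} (hη : nm η = 1)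
    (kad : ∀ y, ip η y = 0 → ∃ b ∈ gen (A0 ∪ u '' Set.univ), π b η = y ∧ π (star b) η = 0) :
    ∃ (Tc : ι → Set ι) (S : Set ι) (f g : NN N → Op N K H),
      Intl N Tc ∧ Intl N S ∧ Intl N f ∧ Intl N g ∧
      (∀ i, Tc i ⊆ Set.Iio i ∧ k i ∈ gen (A0 ∪ u '' Tc i) ∧ u i * k0 ∈ gen (A0 ∪ u '' Tc i)) ∧
      IsCl Tc S ∧
      (∀ n, g n ∈ gen (A0 ∪ u '' S) ∧ Pos (g n) ∧ nm (g n) ≤ 1 ∧ π (g n) η = 0 ∧
        ∃ c, DetAt P (g n) (f n) c) ∧ gen (A0 ∪ u '' S) ⊆ icl (Set.range f) := by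
  obtain ⟨s, s0, s1, s2⟩ := sep
  have h0 := T.cs.intl
  have hu := T.du
  have hk := T.dk
  have h1 := hu.toIntl
  have h2 := hπ.defF
  have hA := cs_gen (A0 ∪ u '' Set.univ)
  have h3 := hA.intl
  obtain ⟨κ, k1, k2⟩ := exists_intl_choiceT (N := N) (α := Op N K H) (β := Op N K H)
    (R := fun a κ => a ∈ gen (A0 ∪ u '' Set.univ) → κ ∈ gen (A0 ∪ u '' Set.univ) ∧ Pos κ ∧
      nm κ ≤ 1 ∧ π κ η = 0 ∧ ∃ c, DetAt P κ a c)
    (DefF.imp (by fun_prop) (DefF.and (by fun_prop) (DefF.and (by fun_prop)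
      (DefF.and (by fun_prop) (DefF.and (by fun_prop) (DefF.exT
        (DefF.detAt hP.defF (by fun_prop) (by fun_prop) (by fun_prop)))))))) fun a => by
      by_cases ha : a ∈ gen (A0 ∪ u '' Set.univ)
      · obtain ⟨κ, h⟩ := exists_forcing hA hπ (hP.mono (Set.subset_univ _)) hη kad ha
        exact ⟨κ, fun _ => h⟩
      · exact ⟨0, fun h => absurd h ha⟩
  obtain ⟨Tc, S, f, t1, t2, t3, t4, t5, t6, t7⟩ := gk_gen.stage (u := u) s s1 s2
    (lo := fun i => Set.Iio i) (by fun_prop) hk (b := fun i => u i * k0) (by fun_prop)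
    (fun i => (T.good i).k_mem) (fun i => (T.good i).uk_mem) (DefF.ofIntl κ)
    fun x hx => (k2 x hx).1
  exact ⟨Tc, S, f, fun n => κ (f n), t1, t2, t3, DefF.toIntl (by fun_prop), t4, t5,
    fun n => ⟨(t6 n).2, (k2 _ (gk_gen.monoL (Set.subset_univ _) (t6 n).1)).2⟩, t7⟩

end Vale.Agent.P070ZT
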